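import Vale.Agent.P257.H314.Assemble
import Vale.Agent.P251.Z.CompA

/-!
# P261, row (A): Smith-Toda complexes of height `n + 1` are `K(n)`-acyclic

* `cyc_of_stow` : a tower `STow D p h i` has cyclic `MU`-homology `Laz / I_h`;
* `smul_eq_zero_of_cyc` : `v_k`, `k < h`, acts by zero on the homotopy of `MU ⊗ PS ⊗ V`;
* `acyclic_tower` : `K ⊗ V = 0`, for `K` a Morava `K`-theory of height `n` and `V` a tower of
  height `n + 1`.
-/

open CategoryTheory MonoidalCategory Limits Pretriangulated MonObj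

set_option linter.unusedSectionVars false

universe v u

namespace Vale.Agent.P261.H604

open Vale.Agent.P251 Vale.Agent.P251.T Vale.Agent.P251.M Vale.Agent.P251.S Vale.Agent.P251.F
  Vale.Agent.P251.I Vale.Agent.P251.Z
open Vale.Agent.P251.M.EvenSpheres Vale.Agent.P257.H314

variable {T : Type u} [Category.{v} T] [Preadditive T] [HasZeroObject T]
    [HasShift T ℤ] [∀ n : ℤ, (shiftFunctor T n).Additive] [Pretriangulated T] [IsTriangulated T]
    [MonoidalCategory T] [SymmetricCategory T] [TensorTriangulated T] [MonoidalClosed T]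
    [HasCoproducts.{0} T] [HasProducts.{0} T] [StableCat T]

section cyc

variable {D : MUData T} {p : ℕ} [Fact p.Prime]

/-- a tower has cyclic `MU`-homology -/
theorem cyc_of_stow (hp : p ≠ 2) {h : ℕ} {V : T} {i : 𝟙_ T ⟶ V} (H : STow D p h i) :
    Cyc D p h i := by
  induction H with
  | one hC => exact cyc_modP D hp hC
  | succ H x hx f hf j δ hΔ ih => exact Cyc.step ih rfl hx hf hΔ

variable {h : ℕ} {V : T} {i : 𝟙_ T ⟶ V}

theorem smul_one (hc : Cyc D p h i) (s k : ℕ) (hk : k < h)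
    (x : 𝟙_ T ⟶ (Am D.R (s + 1) ⊗ V) ⊗ (stdEven T).PS) :
    x ≫ (GD.MP D V s).smul (D.vs p k) = 0 := by
  obtain ⟨y, rfl⟩ := sharpTot_surjective (E := stdEven T) (Am D.R (s + 1) ⊗ V) x
  induction y using DirectSum.induction_on with
  | zero => rw [map_zero, zero_comp]
  | add y y' hy hy' => rw [map_add, Preadditive.add_comp, hy, hy', add_zero]
  | of w a =>
    obtain ⟨z, rfl⟩ := hc.surj s w a
    have h1 : GD.lamN D i s z.1 =
        sharp (D.evw s w z ≫ (redC i).app (Am D.R (s + 1))) :=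
      GD.uN_rN D i s (D.of_evw z).symm
    have hw : Cob.IsWt (w + ((p ^ k : ℤ) - 1)) (z.1 * (vw p k s).1) := z.2.mul (vw p k s).2
    have h2 : GD.lamN D i s (MvPolynomial.C (Laz.v p k) * z.1) =
        sharp (D.evw s _ ⟨_, hw⟩ ≫ (redC i).app (Am D.R (s + 1))) := by
      rw [mul_comm]
      exact GD.uN_rN D i s (D.of_evw ⟨_, hw⟩).symm
    have h3 : D.evw s _ ⟨_, hw⟩ ≫ (redC i).app (Am D.R (s + 1)) = 0 := by
      rw [hc.ker]
      refine Ideal.mul_mem_left _ _ (Ideal.mem_map_of_mem _ ?_)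
      exact vv_mem_Ih hk _
    rw [sharpTot_of, ← h1, ← GD.lamN_mul, h2, h3]
    exact (sharpAdd (stdEven T) (Am D.R (s + 1) ⊗ V) _).map_zero

theorem evReg_cyc (hc : Cyc D p h i) (s : ℕ) :
    EvReg h h (fun k => (GD.MP D V s).smul (D.vs p k)) := by
  have h0 : RegW h h (fun k => (GD.MP D V s).smul (D.vs p k)) (𝟙_ T) :=
    ⟨fun k hk x => smul_one hc s k hk x, fun j h1 h2 => absurd h2 (by omega)⟩
  have hodd : OddZero (Am D.R (s + 1) ⊗ V) := by
    intro n hn f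
    obtain ⟨k, rfl⟩ := hn
    exact hc.odd s k f
  refine ⟨OddZero.coprod fun m => hodd.tensS m, fun n hn => ?_⟩
  obtain ⟨w, rfl⟩ := hn
  let eS : (stdEven T).S w ≅ Sph T (w + w) :=
    (stdEven T).sphIso (Iso.refl _) w ≪≫ eqToIso (by rw [two_mul])
  refine RegW.iso_src eS ?_
  refine RegW.of_whiskerRight ((stdEven T).S (-w)) ?_
  refine RegW.iso_src ((stdEven T).unitIso w) ?_
  refine h0.conj (GD.perN _ (-w)) fun k => ?_
  have h1 := ModStr.IsLinear.smul (GD.perN_linear (GD.XR D V s) (-w)) (D.vs p k)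
  rw [← GD.MP_eq, ModStr.tensorRight_smul] at h1
  rw [← cancel_mono (GD.perN _ (-w)).inv, Category.assoc, Category.assoc, Iso.hom_inv_id,
    Category.comp_id, h1, Iso.hom_inv_id_assoc]

/-- `v_k`, `k < h`, acts by zero on the homotopy of `N_s` -/
theorem smul_sph (hc : Cyc D p h i) (s k : ℕ) (hk : k < h) (n : ℤ)
    (x : Sph T n ⟶ (Am D.R (s + 1) ⊗ V) ⊗ (stdEven T).PS) :
    x ≫ (GD.MP D V s).smul (D.vs p k) = 0 := by
  have H := evReg_cyc hc s
  rcases Int.even_or_odd n with hn | hn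
  · exact (H.reg n hn).1 k hk x
  · rw [H.odd n hn x, zero_comp]

variable (D V) in
/-- `N_0 ≅ P ⊗ V`, linear over `P` -/
theorem exists_iso : ∃ e : ((Am D.R 1 ⊗ V) ⊗ (stdEven T).PS) ≅ D.P ⊗ V, ∀ a : 𝟙_ T ⟶ D.P,
    (GD.MP D V 0).smul a ≫ e.hom = e.hom ≫ ((ModStr.self D.P).smul a ▷ V) := by
  let M : ModStr D.R (Am D.R 1) := (ModStr.self (Am D.R 1)).restr (Am.v D.R (0 : Fin 1))
  let M' : ModStr (stdEven T).PS (stdEven T).PS := ModStr.self (stdEven T).PS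
  have h1 : M.IsLinear (ModStr.self D.R) (λ_ D.R).hom := by
    have h2 : (Am.v D.R (0 : Fin 1)) ≫ amOne D.R = 𝟙 _ := by
      rw [GD.v_zero_one]
      exact (λ_ D.R).inv_hom_id
    have h3 : μ[Am D.R 1] ≫ amOne D.R = (amOne D.R ⊗ₘ amOne D.R) ≫ μ[D.R] :=
      IsMonHom.mul_hom (amOne D.R)
    change ((Am.v D.R (0 : Fin 1)) ▷ (Am D.R 1) ≫ μ[Am D.R 1]) ≫ amOne D.R =
      (D.R ◁ amOne D.R) ≫ μ[D.R]
    rw [Category.assoc, h3, tensorHom_def, Category.assoc, ← comp_whiskerRight_assoc, h2,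
      id_whiskerRight, Category.id_comp]
  have h4 : (M'.tensorRight (𝟙_ T)).IsLinear M' (ρ_ _).hom := by
    unfold ModStr.IsLinear ModStr.tensorRight
    dsimp only
    rw [Category.assoc, rightUnitor_naturality]
    monoidal
  let e1 : (Am D.R 1 ⊗ (stdEven T).PS) ⊗ (V ⊗ 𝟙_ T) ≅
      (Am D.R 1 ⊗ V) ⊗ ((stdEven T).PS ⊗ 𝟙_ T) :=
    ⟨tensorμ _ _ _ _, tensorδ _ _ _ _, by simp, by simp⟩
  let e2 : (Am D.R 1 ⊗ V) ⊗ ((stdEven T).PS ⊗ 𝟙_ T) ≅ (Am D.R 1 ⊗ V) ⊗ (stdEven T).PS :=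
    (Iso.refl _) ⊗ᵢ (ρ_ _)
  let e3 : (Am D.R 1 ⊗ (stdEven T).PS) ⊗ (V ⊗ 𝟙_ T) ≅ (Am D.R 1 ⊗ (stdEven T).PS) ⊗ V :=
    whiskerLeftIso _ (ρ_ V)
  let e4 : (Am D.R 1 ⊗ (stdEven T).PS) ⊗ V ≅ D.P ⊗ V :=
    whiskerRightIso ((λ_ D.R) ⊗ᵢ Iso.refl (stdEven T).PS) V
  have l1 : ((M.tens M').tensorRight (V ⊗ 𝟙_ T)).IsLinear
      ((M.tensorRight V).tens (M'.tensorRight (𝟙_ T))) e1.hom := ModStr.isLinear_tensorμ M M' _ _
  have l2 : ((M.tensorRight V).tens (M'.tensorRight (𝟙_ T))).IsLinear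
      ((M.tensorRight V).tens M') e2.hom := ModStr.IsLinear.tens (ModStr.IsLinear.id _) h4
  have l3 : ((M.tens M').tensorRight (V ⊗ 𝟙_ T)).IsLinear ((M.tens M').tensorRight V) e3.hom :=
    ModStr.isLinear_whiskerLeft _ _
  have l4 : ((M.tens M').tensorRight V).IsLinear
      (((ModStr.self D.R).tens (ModStr.self (stdEven T).PS)).tensorRight V) e4.hom :=
    (ModStr.IsLinear.tens h1 (ModStr.IsLinear.id _)).whiskerRight V
  have l : ((M.tensorRight V).tens M').IsLinear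
      (((ModStr.self D.R).tens (ModStr.self (stdEven T).PS)).tensorRight V)
      ((e1 ≪≫ e2).symm ≪≫ e3 ≪≫ e4).hom :=
    (ModStr.IsLinear.inv (e := e1 ≪≫ e2) (l1.comp l2)).comp (l3.comp l4)
  refine ⟨(e1 ≪≫ e2).symm ≪≫ e3 ≪≫ e4, fun a => ?_⟩
  have h5 : (ModStr.self D.R).tens (ModStr.self (stdEven T).PS) = ModStr.self D.P :=
    ModStr.ext_act rfl
  have h6 := ModStr.IsLinear.smul l a
  rw [h5, ModStr.tensorRight_smul] at h6
  rw [GD.MP_eq]
  exact h6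

/-- `v_k`, `k < h`, acts by zero on the homotopy of `P ⊗ V` -/
theorem smul_sph_P (hc : Cyc D p h i) (k : ℕ) (hk : k < h) (n : ℤ) (x : Sph T n ⟶ D.P ⊗ V) :
    x ≫ ((ModStr.self D.P).smul (D.vs p k) ▷ V) = 0 := by
  obtain ⟨e, he⟩ := exists_iso D V
  have h1 := smul_sph hc 0 k hk n (x ≫ e.inv)
  have h2 : ((x ≫ e.inv) ≫ (GD.MP D V 0).smul (D.vs p k)) ≫ e.hom = 0 := by
    rw [h1, zero_comp]
  rwa [Category.assoc, Category.assoc, he, Iso.inv_hom_id_assoc] at h2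

/-- the telescope of `v_k`, `k < h`, is `V`-acyclic -/
theorem isZero_tel (hc : Cyc D p h i) {k : ℕ} (hk : k < h) (Z : KosData D.P (p : ℤ) k (D.vs p)) :
    IsZero (Z.Tl ⊗ V) := by
  refine StableCat.generator _ fun n f => ?_
  obtain ⟨m, g, hg⟩ := (Z.isTel.tel.tensR V).exists_factor
    (fun _ X f => compact_sum X (isSphere_sph n) f) f
  have h1 := (Z.isTel.tel.tensR V).w m
  rw [← hg, ← h1, ← Category.assoc]
  have h2 := smul_sph_P hc k hk n g
  erw [h2]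
  exact zero_comp

end cyc

section main

variable {F : SpaceFunctor T} {e : F.S.obj CCF ≅ (stdEven T).L} {D : MUData T}
  {p : ℕ} [Fact p.Prime]

theorem kos_acyclic {h : ℕ} {V : T} {i : 𝟙_ T ⟶ V} (hc : Cyc D p h i) {k : ℕ} (hk : k < h)
    (Z : KosData D.P (p : ℤ) k (D.vs p)) : Acyclic Z.K V := by
  refine IsZero.of_iso ?_ (α_ (Z.kos k) Z.Tl V)
  exact (tensorLeft (Z.kos k)).map_isZero (isZero_tel hc hk Z)

/-- **Row (A).** A tower of height `n + 1` is `K(n)`-acyclic. -/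
theorem acyclic_tower (H : MUUniv e D) (hp2 : p ≠ 2) {n : ℕ} (hn : 1 ≤ n) {V : T} {i : 𝟙_ T ⟶ V}
    (hV : STow D p (n + 1) i) {K : T} [MonObj K] [IsCommMonObj K] (o : Oriented F K)
    (hK : IsMoravaPos F p n o) : IsZero (K ⊗ V) := by
  obtain ⟨Z⟩ := exists_kosData D.P (p : ℤ) n (D.vs p)
  exact acyclic_of_kos H hn o hK Z (kos_acyclic (cyc_of_stow hp2 hV) (Nat.lt_succ_self n) Z)

end main

end Vale.Agent.P261.H604
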